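import Vale.Agent.P092RH.Sep
import Vale.Agent.P092RD.Mag
import Vale.Agent.P092RE.NT

/-!
P092, higher rank (helper77): all translates of the boundary measure of a cone commute.
-/

set_option linter.all false

open scoped InnerProductSpace ENNReal NNReal Pointwise
open MeasureTheory Filter Topology ContinuousLinearMap Set

namespace Vale.Agent.P092RH

open Vale.Agent.P092CP Vale.Agent.P092RD Vale.Agent.P092RE Vale.Agent.P092GK
open Vale.Agent.P092.RC (Cm)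
open POM (ex bd_ex)

/-- locally compact second countable Hausdorff spaces are Polish -/
theorem polish_lc (X : Type*) [TopologicalSpace X] [T2Space X] [LocallyCompactSpace X]
    [SecondCountableTopology X] : PolishSpace X := by
  letI := TopologicalSpace.metrizableSpaceMetric X
  have e := UniformSpace.Completion.isDenseEmbedding_coe (α := X)
  have o : IsOpen (range ((↑) : X → UniformSpace.Completion X)) := isOpen_iff_mem_nhds.2 <| by
    rintro _ ⟨x, rfl⟩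
    obtain ⟨Q, hQ, hx⟩ := exists_compact_mem_nhds x
    refine mem_of_superset (e.isDenseInducing.closure_image_mem_nhds hx) ?_
    rw [(hQ.image e.continuous).isClosed.closure_eq]
    exact image_subset_range _ _
  haveI := o.polishSpace
  exact e.isEmbedding.toHomeomorph.isClosedEmbedding.polishSpace

theorem enorm_P_le {Y K : Type} [MeasurableSpace Y] [NormedAddCommGroup K] [InnerProductSpace ℂ K]
    (θ : POM Y K) {A : Set Y} (hA : MeasurableSet A) (ξ : K) : ‖θ.P A ξ‖ₑ ^ 2 ≤ θ.ν ξ A := by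
  have h1 := θ.norm_sq_le (bd_ind1 hA) ξ
  rw [show (fun z => ‖A.indicator (1 : Y → ℂ) z‖ ^ 2) = A.indicator 1 from funext fun z => by
    by_cases h : z ∈ A <;> simp [h], integral_indicator_one hA] at h1
  rw [← ofReal_norm, ← ENNReal.ofReal_pow (norm_nonneg _), ← ofReal_measureReal (measure_ne_top _ A)]
  exact ENNReal.ofReal_le_ofReal h1

variable {G G' K : Type} [Group G] [TopologicalSpace G] [IsTopologicalGroup G]
  [LocallyCompactSpace G] [SecondCountableTopology G] [T2Space G] [MeasurableSpace G] [BorelSpace G]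
  [Group G'] [TopologicalSpace G'] [IsTopologicalGroup G'] [LocallyCompactSpace G']
  [SecondCountableTopology G'] [T2Space G'] [MeasurableSpace G'] [BorelSpace G']
  [NormedAddCommGroup K] [InnerProductSpace ℂ K] [CompleteSpace K] {μ : Measure G}
  [μ.IsHaarMeasure] {μ' : Measure G'} [μ'.IsHaarMeasure] {W : Set (K →L[ℂ] K)}

theorem up_pom {Z : Type} [MeasurableSpace Z] [MulAction G Z] [MeasurableSMul₂ G Z] (S : Side μ W)
    {θ : POM Z K} (cov : Cov S.π θ) (η : Measure G) [SFinite η] {T : Set Z} (hT : MeasurableSet T)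
    {c : ℝ≥0∞} (bd : ∀ z, η {g | g⁻¹ • z ∈ T} ≤ c) : Up S η (fun g => g⁻¹) (θ.P T) c := fun ξ => by
  have mA : MeasurableSet {q : G × Z | q.1⁻¹ • q.2 ∈ T} :=
    (measurable_fst.inv.smul measurable_snd) hT
  refine (lintegral_mono fun g => (enorm_P_le θ hT _).trans_eq (cov.ν S g hT ξ)).trans ?_
  refine (Measure.prod_apply (μ := η) (ν := θ.ν ξ) mA).ge.trans ?_
  rw [Measure.prod_apply_symm mA]
  refine (lintegral_mono bd).trans ?_
  rw [lintegral_const]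
  exact mul_le_mul_right (θ.fin ξ) _

theorem tr_ne (C : Cpl μ μ' W) {η : Measure G} {i : G → G} {x : K →L[ℂ] K} {c₀ : ℝ≥0∞}
    (h0 : c₀ ≠ ∞) (fin : ∀ y, Cm W y → Up C.s η i y 1 → C.t.Tr (x * adjoint y) ≤ c₀)
    {y : K →L[ℂ] K} (hy : Cm W y) {c : ℝ≥0∞} (hc : c ≠ ∞) (up : Up C.s η i y c) :
    C.t.Tr (x * adjoint y) ≠ ∞ := by
  lift c to ℝ≥0 using hc
  have h1 : (0 : ℝ≥0) < c + 1 := by positivity
  have h2 := fin (((((c + 1)⁻¹ : ℝ≥0) : ℝ) : ℂ) • y) (cm_smul _ hy) fun ξ => by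
    simp only [smul_apply, enorm_smul, mul_pow]
    rw [lintegral_const_mul' _ _ (by finiteness)]
    refine (mul_le_mul_right (up ξ) _).trans ?_
    rw [← mul_assoc]
    refine mul_le_mul_left ?_ _
    rw [← ofReal_norm, Complex.norm_real, NNReal.norm_eq, ENNReal.ofReal_coe_nnreal]
    norm_cast
    rw [sq, mul_assoc]
    exact mul_le_one' (inv_le_one_of_one_le₀ le_add_self)
      ((inv_mul_le_iff₀ h1).2 (by rw [mul_one]; exact le_self_add))
  rw [← star_eq_adjoint, star_smul, mul_smul_comm, C.t.Tr_smul, star_eq_adjoint] at h2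
  intro h4
  have h5 : ((((c + 1)⁻¹ : ℝ≥0) : ℝ) : ℂ) ≠ 0 := by exact_mod_cast (inv_pos.2 h1).ne'
  rw [h4, ENNReal.mul_top (pow_ne_zero _ (by simpa using h5))] at h2
  exact h0 (top_le_iff.1 h2)

/-- **commutation from the magic identity, a localiser and finite trace per unit volume** -/
theorem com_of (C : Cpl μ μ' W) {Z Z' Z₀ : Type} [MeasurableSpace Z] [MulAction G Z]
    [MeasurableConstSMul G Z] [MeasurableSpace Z₀] [MulAction G Z₀] [MeasurableSMul₂ G Z₀]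
    [TopologicalSpace Z'] [SecondCountableTopology Z'] [MeasurableSpace Z'] [StandardBorelSpace Z']
    [MulAction G' Z'] [ContinuousConstSMul G' Z'] [MeasurableConstSMul G' Z']
    [MulAction.IsPretransitive G' Z'] {θ : POM Z' K} {θ' : POM Z K} {θ₀ : POM Z₀ K} (hθ : θ.IsP)
    (hθ' : θ'.IsP) (cm : ∀ g, Bd g → Cm W (θ.f g)) (cm₀ : ∀ g, Bd g → Cm W (θ₀.f g))
    (cov : Cov C.t.π θ) (cov' : Cov C.s.π θ') (cov₀ : Cov C.s.π θ₀) {ℓ' : Z' → ℝ} {ℓ : Z → ℝ}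
    (mℓ' : Measurable ℓ') (mℓ : Measurable ℓ)
    (magic : ∀ t, ∃ c : ℂ, θ.f (ex t ℓ') = c • θ'.f (ex t ℓ))
    (rad : ∀ A t, MeasurableSet A → θ₀.P A * θ'.f (ex t ℓ) = θ'.f (ex t ℓ) * θ₀.P A)
    {U : Set Z'} (hU : MeasurableSet U) (h1 : θ.P U = 1) {ι : Type} [Countable ι]
    (s : Sep G' ℓ' U ι) {T : ℕ → Set Z₀} (mT : ∀ m, MeasurableSet (T m)) (monT : Monotone T)
    {c₁ : ℂ} (hc₁ : c₁ ≠ 0) (uT : θ₀.P (⋃ m, T m) = c₁ • 1) {η : Measure G} [SFinite η]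
    (bd : ∀ m, ∃ c, c ≠ ∞ ∧ ∀ z, η {g | g⁻¹ • z ∈ T m} ≤ c) {L : Set Z'} {o : Z'} (hL : L ∈ 𝓝 o)
    (mL : MeasurableSet L) {c₀ : ℝ≥0∞} (h0 : c₀ ≠ ∞)
    (fin : ∀ y, Cm W y → Up C.s η (fun g => g⁻¹) y 1 → C.t.Tr (θ.P L * adjoint y) ≤ c₀) (g : G)
    {f f' : Z' → ℂ} (hf : Bd f) (hf' : Bd f') :
    (C.s.π g * θ.f f * C.s.π g⁻¹) * θ.f f' = θ.f f' * (C.s.π g * θ.f f * C.s.π g⁻¹) := by
  let A : G' → Set Z' := fun x => (fun ζ => x⁻¹ • ζ) ⁻¹' L
  have mA : ∀ x, MeasurableSet (A x) := fun x => measurable_const_smul _ mL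
  have cT := fun m => cm₀ _ (bd_ind1 (mT m))
  refine comm_abs C hθ cm cov mℓ' hU h1 s (H := fun q : G' × ℕ => θ.P (A q.1) * θ₀.P (T q.2))
    (fun q => cm_mul (cm _ (bd_ind1 (mA _))) (cT _)) (fun q t => ?_) (fun q => ?_)
    (fun X _ hX => ?_) g (fun s t => ?_) hf hf'
  · obtain ⟨c, hc⟩ := magic t
    have e : θ₀.P (T q.2) * θ.f (ex t ℓ') = θ.f (ex t ℓ') * θ₀.P (T q.2) := by
      rw [hc, mul_smul_comm, smul_mul_assoc, rad _ t (mT _)]
    rw [mul_assoc, e, ← mul_assoc, ← mul_assoc, POM.P, hθ.comm (bd_ind1 (mA _)) (bd_ex t mℓ')]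
  · obtain ⟨x, m⟩ := q
    obtain ⟨c, hc, h2⟩ := bd m
    have h3 := tr_ne C h0 fin (C.t.conj _ (cT m) x⁻¹) hc fun ξ => by
      have := up_pom C.s cov₀ η (mT m) h2 (C.t.π x⁻¹⁻¹ ξ)
      rw [C.t.enorm_π] at this
      refine le_trans (le_of_eq (lintegral_congr fun y => ?_)) this
      rw [mapp, mapp, C.t.enorm_π, ← mapp (C.t.π _), ← C.comm, mapp]
      rfl
    rw [← star_eq_adjoint, star_mul, star_mul, C.t.star_π, C.t.star_π, ← POM.P, θ₀.star_P (mT m),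
      inv_inv, inv_inv, ← C.t.Tr_conj _ x] at h3
    rwa [← cov.P x mL, show C.t.π x * θ.P L * C.t.π x⁻¹ * θ₀.P (T m) =
      C.t.π x * (θ.P L * (C.t.π x⁻¹ * (θ₀.P (T m) * C.t.π x))) * C.t.π x⁻¹ by
        simp only [mul_assoc, pi_mul_inv, mul_one]]
  · have a1 : ∀ x, X * θ.P (A x) = 0 := fun x => by
      ext ξ
      have t1 := θ₀.tendsto_P_iUnion mT monT ξ
      rw [uT] at t1
      have t2 := tendsto_nhds_unique (((X * θ.P (A x)).continuous.tendsto _).comp t1)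
        (tendsto_const_nhds.congr fun m => (ap_eq ((mul_assoc _ _ _).trans (hX (x, m))) ξ).symm)
      rw [smul_apply, map_smul, zero_apply, smul_eq_zero_iff_right hc₁] at t2
      exact t2
    refine star_eq_zero.1 (ContinuousLinearMap.ext fun ξ => ?_)
    have a2 : θ.ν (star X ξ) univ = 0 := measure_null_of_locally_null _ fun z _ => by
      obtain ⟨x, rfl⟩ := MulAction.exists_smul_eq G' o z
      refine ⟨A x, mem_nhdsWithin_of_mem_nhds ((continuous_const_smul x⁻¹).continuousAt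
        (by rwa [inv_smul_smul])), ?_⟩
      rw [← hθ.enorm_P_sq (mA x), ← mapp, ← θ.star_P (mA x), ← star_mul, a1]
      simp
    rw [hθ.ν_univ] at a2
    simpa using a2
  · obtain ⟨c, hc⟩ := magic s
    obtain ⟨c', hc'⟩ := magic t
    have b : Bd fun ζ => ex s ℓ (g⁻¹ • ζ) := (bd_ex s mℓ).comp (measurable_const_smul _)
    rw [hc, hc', mul_smul_comm c, smul_mul_assoc c, cov' g _ (bd_ex s mℓ), smul_mul_smul_comm,
      smul_mul_smul_comm, mul_comm c, hθ'.comm b (bd_ex t mℓ)]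

variable {k : Type} [NontriviallyNormedField k] [ProperSpace k] {r : ℕ} {F : FlD k G r}
  {X : Type} [NormedAddCommGroup X] [NormedSpace ℝ X] {H H₀ : Subgroup G}
  {t₀ : (Fin r → ℝ) →ₗ[ℝ] X}

theorem prop_opp (h : Fl F) (e : F.Ht H₀ t₀) (ht : Function.Injective t₀)
    {T : Set (F.Y Finset.univ × (G ⧸ H₀))} (hT : IsCompact T) (hs : T ⊆ F.Op _ _) :
    ∃ D : Set G, IsCompact D ∧ ∀ (y : F.Y Finset.univ) (z : G ⧸ H₀) (g g₀ : G),
      (g • y, g • z) ∈ T → (g₀ • y, g₀ • z) ∈ T → g * g₀⁻¹ ∈ D := by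
  obtain ⟨Q, hQ, h1⟩ := h.lift_opp e hT hs
  refine ⟨_, (hQ.mul h.cpt_M).mul hQ.inv, fun y z g g₀ hg h2 => ?_⟩
  obtain ⟨q₀, h3, h4, h5⟩ := h1 _ h2
  obtain ⟨q, h6, h7, h8⟩ := h1 _ hg
  have h9 := h.stab_opp e (g := q⁻¹ * (g * g₀⁻¹) * q₀) (by
    rw [mul_assoc, ← mk_smul, ← h4, mul_smul, mul_smul, inv_smul_smul, show g • y = _ from h7,
      mk_smul, inv_mul_cancel_left]) (by
    rw [← mk_smul, ← h5, mul_smul, mul_smul, inv_smul_smul, show g • z = _ from h8,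
      mk_smul, inv_mul_cancel])
  exact ⟨_, mul_mem_mul h6 (h.mem_M.2 ⟨h9.1, ht (h9.2.trans (map_zero t₀).symm)⟩), _,
    Set.inv_mem_inv.2 h3, by simp only; group⟩

/-- the big cell of a cone -/
def cell (F : FlD k G r) (H : Subgroup G) : Set (G ⧸ H) :=
  {z | (((1 : G) : F.Y Finset.univ), z) ∈ F.Op _ H}

theorem mem_cell (h : Fl F) (e : H ≤ F.P Finset.univ) (g : G) :
    (g : G ⧸ H) ∈ cell F H ↔ F.n₀ * g ∈ F.Ω := by
  rw [cell, mem_setOf_eq, h.op_mk le_rfl e, inv_one, mul_one]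

theorem isOpen_cell (h : Fl F) (e : H ≤ F.P Finset.univ) : IsOpen (cell F H) :=
  (h.isOpen_Op le_rfl e).preimage (Continuous.prodMk_right _)

theorem null_cell (h : Fl F) (e : H ≤ F.P Finset.univ) [MeasurableSpace (G ⧸ H)]
    [BorelSpace (G ⧸ H)] {θ : POM (G ⧸ H) K} (S : Side μ W) (cov : Cov S.π θ) :
    θ.P (cell F H) = θ.f 1 := by
  have m := (isOpen_cell h e).measurableSet
  rw [← θ.P_univ, ← union_compl_self (cell F H), θ.P_union m m.compl disjoint_compl_right,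
    null S cov m.compl fun ζ => (quasiMeasurePreserving_inv μ).ae (h.ae_op μ le_rfl e _ ζ),
    add_zero]

theorem exh (h : Fl F) (e : F.Ht H₀ t₀) (ht : Function.Injective t₀) (hH : H ≤ F.P Finset.univ)
    {η : Measure G} (hη : Hm H η) : ∃ T : ℕ → Set (G ⧸ H₀), (∀ m, IsCompact (T m)) ∧ Monotone T ∧
      ⋃ m, T m = cell F H₀ ∧ ∀ m, ∃ c, c ≠ ∞ ∧ ∀ z, η {g | g⁻¹ • z ∈ T m} ≤ c := by
  haveI := (isOpen_cell h e.le).locallyCompactSpace
  have h1 := fun m => (isCompact_compactCovering (cell F H₀) m).image continuous_subtype_val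
  refine ⟨_, h1, fun a b c => image_mono (compactCovering_subset _ c), by
    rw [← image_iUnion, iUnion_compactCovering, Subtype.coe_image_univ], fun m => ?_⟩
  obtain ⟨D, hD, h2⟩ := prop_opp h e ht ((isCompact_singleton (x := ((1 : G) : F.Y _))).prod (h1 m))
    (by rintro ⟨_, _⟩ ⟨rfl, z, -, rfl⟩; exact z.2)
  refine ⟨_, (hη.fin _ hD.inv).ne, fun z => ?_⟩
  rw [← hη.inter]
  rcases eq_empty_or_nonempty ({g : G | g⁻¹ • z ∈ Subtype.val '' compactCovering (cell F H₀) m} ∩ H)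
    with h0 | ⟨g₀, h3, h4⟩
  · rw [h0, measure_empty]; exact zero_le
  have h5 : ∀ g ∈ H, g⁻¹ • ((1 : G) : F.Y Finset.univ) = (1 : G) := fun g hg =>
    QuotientGroup.eq.2 (by simpa using hH hg)
  rw [← (hη.mp_left (H.inv_mem h4)).measure_preimage hD.inv.measurableSet.nullMeasurableSet]
  refine measure_mono fun g hg => ?_
  simpa using h2 _ z g⁻¹ g₀⁻¹ ⟨h5 g hg.2, hg.1⟩ ⟨h5 g₀ h4, h3⟩

/-- **COM**: `θ` lives on a cone of the target with one height, `θ'` is its partner on the source,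
`θ₀` is a localiser on the full cone of the source -/
theorem com_hr (C : Cpl μ μ' W) (h : Fl F) {k' : Type} [NontriviallyNormedField k'] [ProperSpace k']
    {r' : ℕ} {F' : FlD k' G' r'} (h' : Fl F') {ϑ : k' →+* ℂ} {ι : ℝ →+* k'} (ar : Arc ϑ ι)
    {a : ℝ → G'} (ha : Reg F' a) (hB : Bru F') {H' : Subgroup G'} {t' : (Fin r' → ℝ) →ₗ[ℝ] ℝ}
    (e' : F'.Ht H' t') (hp : F'.Pos t') [MeasurableSpace (G' ⧸ H')] [BorelSpace (G' ⧸ H')]
    (e : F.Ht H₀ t₀) (ht : Function.Injective t₀) [MeasurableSpace (G ⧸ H₀)] [BorelSpace (G ⧸ H₀)]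
    {Z : Type} [MeasurableSpace Z] [MulAction G Z] [MeasurableConstSMul G Z]
    {θ : POM (G' ⧸ H') K} {θ' : POM Z K} {θ₀ : POM (G ⧸ H₀) K} (hθ : θ.IsP) (hθ' : θ'.IsP)
    (cm : ∀ g, Bd g → Cm W (θ.f g)) (cm₀ : ∀ g, Bd g → Cm W (θ₀.f g)) (cov : Cov C.t.π θ)
    (cov' : Cov C.s.π θ') (cov₀ : Cov C.s.π θ₀) {ℓ' : G' ⧸ H' → ℝ} {ℓ : Z → ℝ}
    (mℓ' : Measurable ℓ') (mℓ : Measurable ℓ)
    (hℓ : ∀ g : G', F'.n₀ * g ∈ F'.Ω → ℓ' g = t' (F'.ℓ (F'.n₀ * g)))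
    (magic : ∀ t, ∃ c : ℂ, θ.f (ex t ℓ') = c • θ'.f (ex t ℓ))
    (rad : ∀ A t, MeasurableSet A → θ₀.P A * θ'.f (ex t ℓ) = θ'.f (ex t ℓ) * θ₀.P A)
    {c₁ : ℂ} (hc₁ : c₁ ≠ 0) (one : θ₀.f 1 = c₁ • 1) (hH : H ≤ F.P Finset.univ) {η : Measure G}
    (hη : Hm H η) {L : Set (G' ⧸ H')} {o : G' ⧸ H'} (hL : L ∈ 𝓝 o) (mL : MeasurableSet L)
    {c₀ : ℝ≥0∞} (h0 : c₀ ≠ ∞)
    (fin : ∀ y, Cm W y → Up C.s η (fun g => g⁻¹) y 1 → C.t.Tr (θ.P L * adjoint y) ≤ c₀) (g : G)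
    {f f' : G' ⧸ H' → ℂ} (hf : Bd f) (hf' : Bd f') :
    (C.s.π g * θ.f f * C.s.π g⁻¹) * θ.f f' = θ.f f' * (C.s.π g * θ.f f * C.s.π g⁻¹) := by
  haveI := h.Ht_cl e
  haveI := h'.Ht_cl e'
  haveI := hη.sfin
  haveI := polish_lc (G' ⧸ H')
  obtain ⟨T, h1, h2, h3, h4⟩ := exh h e ht hH hη
  obtain ⟨s⟩ := exists_sep h' ar ha hB e' hp mℓ' (mem_cell h' e'.le) hℓ
  exact com_of C hθ hθ' cm cm₀ cov cov' cov₀ mℓ' mℓ magic rad (isOpen_cell h' e'.le).measurableSet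
    ((null_cell h' e'.le C.t cov).trans hθ.one) s (fun m => (h1 m).measurableSet) h2 hc₁
    (h3 ▸ (null_cell h e.le C.s cov₀).trans one) h4 hL mL h0 fin g hf hf'

end Vale.Agent.P092RH
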