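import Vale.Agent.P092RH.Com
import Vale.Agent.P092EH.Mag
import Vale.Agent.P092HR.Defs

/-!
P092, higher rank (helper77): the block COM for real groups.
-/

set_option linter.all false

open scoped InnerProductSpace ENNReal NNReal Vale.Agent.P092HR
open MeasureTheory Filter Topology ContinuousLinearMap Set

namespace Vale.Agent.P092RH

open Vale.Agent.P092CP Vale.Agent.P092RD Vale.Agent.P092GK Vale.Agent.P092HR
open Vale.Agent.P092.RC (Cm Moore)
open POM (ex bd_ex)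

variable {k : Type} [NontriviallyNormedField k] {G K : Type} [Group G] [TopologicalSpace G] {r : ℕ}

variable [ProperSpace k] [IsTopologicalGroup G] [LocallyCompactSpace G] [SecondCountableTopology G]
  [T2Space G] [MeasurableSpace G] [BorelSpace G] [NormedAddCommGroup K] [InnerProductSpace ℂ K]
  [CompleteSpace K] {μ : Measure G} [μ.IsHaarMeasure] {W : Set (K →L[ℂ] K)} {F : FlD k G r}
  {X : Type} [NormedAddCommGroup X] [NormedSpace ℝ X] {C : Cpl μ μ W} {L L' : Aa r →ₗ[ℝ] Aa r}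
  {E E' : POM (YY F) K} {θ₀ θ₀' : POM (ZZ F) K} {H : Subgroup G}

omit [LocallyCompactSpace G] [SecondCountableTopology G] [MeasurableSpace G] [BorelSpace G] in
theorem moore_up (g : Gr F) {S : Set G} (hS : (F.Up : Set G) ⊆ S) : Moore S := by
  obtain ⟨s, N, τ, w, hp⟩ := g.pan
  intro V _ _ _ u h1 h2 ξ h3 x
  refine P092GH.moore_U g.fl hp ⟨h1, fun v => by simpa using (h2 v).tendsto 1⟩
    (θ := Finset.univ) ⟨⟨0, by have := g.two; omega⟩, Finset.mem_univ _⟩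
    (fun v hv => h3 v (hS (g.fl.U_le_Up _ hv))) (g.gen ▸ Subgroup.mem_top x)

theorem t0_one {z : ℕ → G} (T : T0 F C z L E θ₀) : ∃ c : ℂ, c ≠ 0 ∧ θ₀.f 1 = c • 1 := by
  obtain ⟨u, h1, h2⟩ := T.uni 0
  obtain ⟨c, hc⟩ := (h2 0).2 _ (T.mem 0 0)
  rw [h1.zero, show ex 0 (fun ζ => (0 : Aa r →ₗ[ℝ] ℝ) (F.hq (NN F) .id ζ)) = 1 from
    funext fun _ => by simp [ex]] at hc
  exact ⟨c, fun h => T.ne (by rw [hc, h, zero_smul]), hc⟩

theorem sd_th {θ : POM (G ⧸ H) K} (a : Sd F C L E θ₀ H F.ρ θ) : P092EH.Th C F F F.ρ F.ρ θ :=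
  ⟨a.tx.isP, a.tx.inv.cm, a.tx.inv.cov, fun p hp =>
    ⟨p, hp, rfl, a.tx.mv p hp p hp (a.rho _).symm⟩⟩

/-- **COM for real groups** -/
theorem com_r (g : Gr F) (s : SepR F) {θ θ' : POM (G ⧸ H) K} (a : Sd F C L E θ₀ H F.ρ θ)
    (b : Sd F C.swap L' E' θ₀' H F.ρ θ') : Com C θ := by
  haveI := C.s.right
  obtain ⟨z, T⟩ := b.t0
  obtain ⟨c₁, h1, h2⟩ := t0_one T
  have h := g.fl
  have e := a.cs.tgt
  obtain ⟨η, hη⟩ := exists_hm (h.Ht_cl e)
  haveI := h.Ht_cl e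
  haveI := h.Ht_cl h.Ht_N
  haveI := hη.sfin
  haveI := polish_lc (G ⧸ H)
  obtain ⟨S, hS, h3⟩ := exists_compact_mem_nhds ((1 : G) : G ⧸ H)
  obtain ⟨c, h4, h5⟩ := a.fin η hη S hS
  have m := P092EH.meas_lz h e
  obtain ⟨Q, h6, h7, h8, h9⟩ := exh h h.Ht_N Function.injective_id e.le hη
  obtain ⟨s⟩ := s H _ _ _ e m (mem_cell h e.le) (P092EH.lz_mk h e)
  intro x f f' hf hf'
  exact (com_of C a.tx.isP b.tx.isP a.tx.inv.cm T.inv.cm a.tx.inv.cov b.tx.inv.cov T.inv.cov m m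
    (P092EH.magic_ρ (sd_th a) (sd_th b) h h e e (moore_up g fun u => h.up_Ht e) hη
      ⟨S, h3, hS.measurableSet, c, h4, h5⟩ (h.z_mem_P (h.cb_mem .univ) _) (h.cb_mem .univ)
      (fun i => h.ℓ_cb_pos (Finset.mem_univ i)) rfl)
    (fun A t hA => b.rad _ _ (bd_ind1 hA) (bd_ex t m)) (isOpen_cell h e.le).measurableSet
    ((null_cell h e.le C.t a.tx.inv.cov).trans a.tx.isP.one) s (fun m => (h6 m).measurableSet) h7 h1
    (h8 ▸ (null_cell h h.Ht_N.le C.swap.t T.inv.cov).trans h2) h9 h3 hS.measurableSet h4 h5 x hf'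
    hf).symm

end Vale.Agent.P092RH
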