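import Vale.Agent.P092RH.Sep
import Vale.Agent.P092GP.Flag

/-!
P092, higher rank (helper77): the real torus and the separation datum of a linear package over an
archimedean field.
-/

set_option linter.all false

open MeasureTheory Filter Topology Set

namespace Vale.Agent.P092RH

open Vale.Agent.P092 Vale.Agent.P092GK Vale.Agent.P092RD Vale.Agent.P092GP

variable {k : Type} [NontriviallyNormedField k]

theorem exists_arc (h : UN.LocK k) (hu : ¬ IsUltrametricDist k) : ∃ θ ι, Arc (k := k) θ ι := by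
  rcases h with ⟨φ, h⟩ | ⟨φ, h⟩ | h
  · exact ⟨Complex.ofRealHom.comp φ, φ.symm, fun x => (Complex.norm_real _).trans (h x),
      fun s => congrArg Complex.ofReal (φ.apply_symm_apply s)⟩
  · exact ⟨φ, (φ.symm : ℂ →+* k).comp Complex.ofRealHom, h, fun s => φ.apply_symm_apply _⟩
  · exact absurd h hu

theorem Arc.norm {θ : k →+* ℂ} {ι : ℝ →+* k} (c : Arc θ ι) (s : ℝ) : ‖ι s‖ = ‖s‖ := by
  rw [← c.nrm, c.inv, Complex.norm_real]

variable {G : Type} [Group G] [TopologicalSpace G]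

/-- a real torus: a continuous section of `ℓ` with values in the centre of `Z` -/
structure Tor {r : ℕ} (F : FlD k G r) (A : (Fin r → ℝ) → G) : Prop where
  cont : Continuous A
  add : ∀ x y, A (x + y) = A x * A y
  mem : ∀ x, A x ∈ F.Z
  comm : ∀ x, ∀ z ∈ F.Z, A x * z = z * A x
  lg : ∀ x, F.ℓ (A x) = x

theorem Tor.reg {r : ℕ} {F : FlD k G r} {A : (Fin r → ℝ) → G} (h : Tor F A) :
    Reg F fun s => A fun _ => s :=
  ⟨h.cont.comp (by fun_prop), fun s t => h.add _ _, fun s => h.mem _, fun i => by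
    rw [h.lg]; exact one_pos⟩

variable {L : LD k G}

theorem bru (H : L.Ok) : Bru L.fl := fun g =>
  let ⟨u, hu, n, _, _, hn, u', hu', e⟩ := H.bruhat0 g
  ⟨u, hu, n, u', hu', fun _ hz => hn.conj_Z0 hz, e⟩

theorem exists_tor (H : L.LP) (hu : ¬ IsUltrametricDist k) : ∃ A, Tor L.fl A := by
  obtain ⟨θ, ι, c⟩ := exists_arc H.loc hu
  let e : ℝ → kˣ := fun s => Units.mk0 (ι (Real.exp s)) ((map_ne_zero ι).2 (Real.exp_pos s).ne')
  have h1 : Continuous fun s => ι (Real.exp s) :=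
    (AddMonoidHomClass.isometry_of_norm ι c.norm).continuous.comp Real.continuous_exp
  have h2 : Continuous e := Units.continuous_iff.2 ⟨h1,
    h1.inv₀ fun s => (map_ne_zero ι).2 (Real.exp_pos s).ne'⟩
  refine ⟨fun x => L.σ fun i => e (x i), H.cont_σ.comp (by fun_prop), fun x y => ?_,
    fun x => H.ok.σ_mem_Z0 _, fun x z hz => ?_, fun x => ?_⟩
  · rw [← H.ok.σ_mul]
    congr 1
    ext i
    simp only [e, Pi.add_apply, Pi.mul_apply, Units.val_mul, Units.val_mk0, Real.exp_add, map_mul]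
  · refine (Commute.list_prod_left _ _ fun y hy => ?_).eq
    obtain ⟨i, rfl⟩ := List.mem_ofFn.1 hy
    exact H.ok.τ_comm0 _ _ hz
  · rw [H.ok.ℓ_σ]
    ext i
    simp only [e, Units.val_mk0, c.norm, Real.norm_eq_abs, Real.log_abs, Real.log_exp]

/-- **the separation datum of a cone of a real group** -/
theorem sep_lp [IsTopologicalGroup G] (H : L.LP) (hu : ¬ IsUltrametricDist k) {K : Subgroup G}
    {t : (Fin L.R.r → ℝ) →ₗ[ℝ] ℝ} (e : L.fl.Ht K t) (hp : L.fl.Pos t) [MeasurableSpace (G ⧸ K)]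
    {ℓ : G ⧸ K → ℝ} [MeasurableConstSMul G (G ⧸ K)] (mℓ : Measurable ℓ) {U : Set (G ⧸ K)} {n : G}
    (hU : ∀ g : G, (g : G ⧸ K) ∈ U ↔ n * g ∈ L.fl.Ω)
    (hℓ : ∀ g : G, n * g ∈ L.fl.Ω → ℓ g = t (L.fl.ℓ (n * g))) : Nonempty (Sep G ℓ U ℕ) := by
  haveI := H.t2
  haveI := H.lc
  haveI := H.sc
  haveI := H.prop
  obtain ⟨θ, ι, c⟩ := exists_arc H.loc hu
  obtain ⟨A, hA⟩ := exists_tor H hu
  exact exists_sep H.fl c hA.reg (bru H.ok) e hp mℓ hU hℓ

end Vale.Agent.P092RH
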