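import Vale.Agent.P092RD.D7b
import Vale.Agent.P092GK.Dd

/-!
P092, higher rank (helper77): over an archimedean field the first order derivatives of the
pairing separate the points of the big cell of a cone.
-/

set_option linter.all false

open MeasureTheory Filter Topology Set

namespace Vale.Agent.P092RH

open Vale.Agent.P092GK Vale.Agent.P092RD

theorem one_par {A : Type} [NormedRing A] [NormedAlgebra ℝ A] [CompleteSpace A] {U : ℝ → A}
    (hU : Continuous U) (hm : ∀ s t, U (s + t) = U s * U t) (h0 : U 0 = 1) :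
    ∃ X, HasDerivAt U X 0 := by
  have hF : ∀ s, HasDerivAt (fun s => ∫ x in (0 : ℝ)..s, U x) (U s) s := fun s =>
    (hU.integral_hasStrictDerivAt 0 s).hasDerivAt
  have e0 : (fun s => ∫ x in (0 : ℝ)..s, U x) 0 = 0 := intervalIntegral.integral_same
  generalize (fun s => ∫ x in (0 : ℝ)..s, U x) = F at hF e0
  have h1 := hasDerivAt_iff_tendsto_slope_zero.1 (hF 0)
  rw [h0] at h1
  obtain ⟨δ, B, hB⟩ := (h1.eventually (Units.isOpen.mem_nhds isUnit_one)).exists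
  rw [zero_add, e0, sub_zero] at hB
  have h2 : ∀ s, U s * F δ = F (s + δ) - F s := fun s => by
    have h3 : ∀ x, HasDerivAt (fun x => U s * F x - F (s + x)) 0 x := fun x => by
      have := ((hF x).const_mul (U s)).sub ((hF (s + x)).comp_const_add s x)
      rwa [hm, sub_self] at this
    have h4 := is_const_of_deriv_eq_zero (fun x => (h3 x).differentiableAt)
      (fun x => (h3 x).deriv) δ 0
    rw [e0, mul_zero, add_zero, zero_sub] at h4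
    rw [sub_eq_iff_eq_add'.1 h4, sub_eq_add_neg]
  have h5 : U = fun s => δ⁻¹ • (F (s + δ) - F s) * ↑B⁻¹ := funext fun s => by
    rw [← h2, ← mul_smul_comm, ← hB, Units.mul_inv_cancel_right]
  rw [h5]
  exact ⟨_, ((((hF (0 + δ)).comp_add_const 0 δ).sub (hF 0)).const_smul δ⁻¹).mul_const _⟩

variable {k : Type} [NontriviallyNormedField k]

/-- the field is `ℝ` or `ℂ` -/
structure Arc (θ : k →+* ℂ) (ι : ℝ →+* k) : Prop where
  nrm : ∀ x, ‖θ x‖ = ‖x‖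
  inv : ∀ s, θ (ι s) = s

theorem Arc.deriv {θ : k →+* ℂ} {ι : ℝ →+* k} (c : Arc θ ι) [CompleteSpace k] {E : Type}
    [NormedAddCommGroup E] [NormedSpace k E] [FiniteDimensional k E] {U : ℝ → E →L[k] E}
    (hU : Continuous U) (hm : ∀ s t, U (s + t) = U s * U t) (h0 : U 0 = 1) :
    ∃ X : E →L[k] E, ∀ (ψ : E →L[k] k) (x : E),
      HasDerivAt (fun s => θ (ψ (U s x))) (θ (ψ (X x))) 0 := by
  haveI : CompleteSpace E := FiniteDimensional.complete k E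
  letI : Algebra ℝ k := ι.toAlgebra
  letI : NormedAlgebra ℝ k := ⟨fun s x => by
    rw [Algebra.smul_def, norm_mul, RingHom.algebraMap_toAlgebra, ← c.nrm (ι s), c.inv,
      Complex.norm_real]⟩
  letI : NormedAlgebra ℝ (E →L[k] E) := NormedAlgebra.restrictScalars ℝ k _
  obtain ⟨X, hX⟩ := one_par hU hm h0
  refine ⟨X, fun ψ x => hasDerivAt_iff_tendsto_slope_zero.2 ?_⟩
  have h1 : Continuous fun T : E →L[k] E => θ (ψ (T x)) :=
    (AddMonoidHomClass.isometry_of_norm θ c.nrm).continuous.comp (by fun_prop)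
  refine ((h1.tendsto X).comp (hasDerivAt_iff_tendsto_slope_zero.1 hX)).congr fun s => ?_
  show θ (ψ ((ι s⁻¹ • (U (0 + s) - U 0)) x)) = _
  rw [ContinuousLinearMap.smul_apply, map_smul, smul_eq_mul, map_mul, c.inv,
    ContinuousLinearMap.sub_apply, map_sub, map_sub, Complex.real_smul]

theorem tendsto_inv_succ : Tendsto (fun j : ℕ => ((j : ℝ) + 1)⁻¹) atTop (𝓝[≠] 0) :=
  tendsto_nhdsWithin_iff.2 ⟨(tendsto_natCast_atTop_atTop.atTop_add
    tendsto_const_nhds).inv_tendsto_atTop, Eventually.of_forall fun j =>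
      (by positivity : ((j : ℝ) + 1)⁻¹ ≠ 0)⟩

variable {G : Type} [Group G] [TopologicalSpace G] [IsTopologicalGroup G] [T2Space G] {r : ℕ}
  {F : FlD k G r} {t : (Fin r → ℝ) →ₗ[ℝ] ℝ}

/-- a regular one parameter subgroup of the centraliser of the torus -/
structure Reg (F : FlD k G r) (a : ℝ → G) : Prop where
  cont : Continuous a
  add : ∀ s t, a (s + t) = a s * a t
  mem : ∀ s, a s ∈ F.Z
  pos : ∀ i, 0 < F.ℓ (a 1) i

/-- the Bruhat decomposition -/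
def Bru (F : FlD k G r) : Prop := ∀ g, ∃ v ∈ F.Up, ∃ m, ∃ v' ∈ F.Up,
  (∀ z ∈ F.Z, m * z * m⁻¹ ∈ F.Z) ∧ g = v * m * v'

theorem Reg.zero {a : ℝ → G} (ha : Reg F a) : a 0 = 1 := by
  have := ha.add 0 0
  rwa [add_zero, left_eq_mul] at this

theorem Reg.pow {a : ℝ → G} (ha : Reg F a) (s : ℝ) (n : ℕ) : a s ^ n = a (n * s) := by
  induction n with
  | zero => rw [pow_zero, Nat.cast_zero, zero_mul, ha.zero]
  | succ n ih => rw [pow_succ, ih, ← ha.add, Nat.cast_succ, add_one_mul]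

theorem exists_dd (h : Fl F) {θ : k →+* ℂ} {ι : ℝ →+* k} (c : Arc θ ι) [CompleteSpace k]
    {a : ℝ → G} (ha : Reg F a) (t : (Fin r → ℝ) →ₗ[ℝ] ℝ) : ∃ D : G → G → ℝ,
      (∀ x, Continuous fun g => D g x) ∧ ∀ g, ∀ x ∈ F.Ω, Tendsto (fun j : ℕ => ((j : ℝ) + 1) *
        (t (F.ℓ (g * a ((j : ℝ) + 1)⁻¹ * g⁻¹ * x)) - t (F.ℓ x))) atTop (𝓝 (D g x)) := by
  choose X hX using fun j => c.deriv (U := fun s => F.V j (a s)) ((h.contV j).comp ha.cont)
    (fun s t => by rw [ha.add, map_mul]) (by rw [ha.zero, map_one])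
  let T := LinearMap.toContinuousLinearMap (t ∘ₗ Matrix.mulVecLin F.c⁻¹)
  have hθ := (AddMonoidHomClass.isometry_of_norm θ c.nrm).continuous
  refine ⟨fun g x => T fun j => fderiv ℝ (fun z : ℂ => Real.log ‖z‖) (θ (F.Δ j x))
    (θ ((F.φ j).comp (F.V j g) (X j (F.V j (g⁻¹ * x) (F.v j))))), fun x => T.continuous.comp
      (continuous_pi fun j => (ContinuousLinearMap.continuous _).comp (hθ.comp ?_)),
    fun g x hx => ?_⟩
  · have := h.contV j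
    exact (F.φ j).continuous.comp (this.clm_apply ((X j).continuous.comp
      ((this.comp (by fun_prop)).clm_apply continuous_const)))
  · have h1 : ∀ j s, (F.φ j).comp (F.V j g) (F.V j (a s) (F.V j (g⁻¹ * x) (F.v j))) =
        F.Δ j (g * a s * g⁻¹ * x) := fun j s => by
      rw [FlD.Δ, mul_assoc, mul_assoc, FlD.V_mul j g, FlD.V_mul j (a s)]
      rfl
    have h2 : g * a 0 * g⁻¹ * x = x := by rw [ha.zero, mul_one, mul_inv_cancel, one_mul]
    have h3 := T.hasFDerivAt.comp_hasDerivAt (0 : ℝ) (hasDerivAt_pi.2 fun j => by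
      have h4 : θ (F.Δ j x) ≠ 0 := (map_ne_zero θ).2 (hx j)
      have h5 := ((differentiableAt_id.norm ℝ h4).log (norm_ne_zero_iff.2 h4)).hasFDerivAt
      exact h5.comp_hasDerivAt_of_eq 0 (hX j ((F.φ j).comp (F.V j g)) (F.V j (g⁻¹ * x) (F.v j)))
        (by rw [h1, h2]))
    refine ((hasDerivAt_iff_tendsto_slope_zero.1 h3).comp tendsto_inv_succ).congr fun j => ?_
    simp only [Function.comp_def, id, h1, h2, c.nrm, zero_add, inv_inv, smul_eq_mul]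
    rfl

variable [LocallyCompactSpace G]

theorem weyl_fix (h : Fl F) (hp : F.Pos t) {m b : G} (hm : ∀ z ∈ F.Z, m * z * m⁻¹ ∈ F.Z)
    (hb : b ∈ F.Z) (h0 : ∀ i, 0 < F.ℓ b i) (e : t (F.ℓ (m * b * m⁻¹)) = t (F.ℓ b)) :
    m ∈ F.P Finset.univ := by
  obtain ⟨D, hD, h5⟩ := h.lam_dom
  obtain ⟨R, hR⟩ := hp D
  have ha := h.dom_pow (show F.Dom b from ⟨hb, fun i => (h0 i).le⟩)
  refine (Subgroup.inv_mem_iff _).1 (h.P_iff.2 fun j _ => h.fix_of_ht ha (h.tendsto_pow hb (h0 j))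
    (R := F.ht m⁻¹ j + R) fun n => ?_)
  have h1 := (ha n).1
  have h2 := F.Z.inv_mem (F.Z.pow_mem (hm b hb) n)
  have h3 : F.ht ((b ^ n)⁻¹ * m⁻¹ * b ^ n) = F.ht m⁻¹ + F.ω (F.ℓ (((m * b * m⁻¹) ^ n)⁻¹ * b ^ n)) := by
    rw [← h.ht_z (F.Z.mul_mem h2 h1), conj_pow]
    congr 1
    group
  have h4 := hR (F.ℓ (((m * b * m⁻¹) ^ n)⁻¹ * b ^ n)) (fun i => ?_) ?_ j
  · rw [h3, Pi.add_apply]
    linarith
  · have h14 := h.ht_mul_le (b ^ n) ((b ^ n)⁻¹ * m⁻¹) i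
    have h15 := congrFun (h.ht_z h1 ((b ^ n)⁻¹ * m⁻¹)) i
    rw [mul_inv_cancel_left] at h14
    rw [h3, Pi.add_apply, Pi.add_apply] at h15
    linarith [(abs_le.1 (h5 _ (ha n) i)).2]
  · rw [h.ℓ_mul h2 h1, h.ℓ_inv (F.Z.pow_mem (hm b hb) n), h.ℓ_pow (hm b hb), h.ℓ_pow hb, map_add,
      map_neg, map_smul, map_smul, e, neg_add_cancel, norm_zero]
    linarith

theorem l_cell (h : Fl F) {u v z p : G} (hu : u ∈ F.Um) (hv : v ∈ F.Up) (hz : z ∈ F.Z)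
    (hp : p ∈ F.P Finset.univ) : F.ℓ (u * (v * z * v⁻¹ * p)) = F.ℓ z + F.ℓ (u * p) := by
  have h1 := h.up_mem_P hv Finset.univ
  have h2 := h.z_mem_P hz Finset.univ
  rw [h.ℓ_um hu, h.ℓ_um hu, h.ℓ_P (h.P_Ω ((F.P _).mul_mem ((F.P _).mul_mem h1 h2)
    ((F.P _).inv_mem h1))) hp, h.ℓ_up (F.Up.inv_mem hv), h.ℓ_P (h.P_Ω h1) h2, h.ℓ_of_up hv, zero_add]

/-- **the separation datum of the cone** -/
theorem exists_sep [SecondCountableTopology G] (h : Fl F) {θ : k →+* ℂ} {ι : ℝ →+* k} (c : Arc θ ι)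
    [CompleteSpace k] {a : ℝ → G} (ha : Reg F a) (hB : Bru F) {H : Subgroup G} (e : F.Ht H t)
    (hp : F.Pos t) [MeasurableSpace (G ⧸ H)] {ℓ : G ⧸ H → ℝ} [MeasurableConstSMul G (G ⧸ H)]
    (mℓ : Measurable ℓ) {U : Set (G ⧸ H)} {n : G} (hU : ∀ g : G, (g : G ⧸ H) ∈ U ↔ n * g ∈ F.Ω)
    (hℓ : ∀ g : G, n * g ∈ F.Ω → ℓ g = t (F.ℓ (n * g))) : Nonempty (Sep G ℓ U ℕ) := by
  obtain ⟨D, hc, hD⟩ := exists_dd h c ha t
  let q := TopologicalSpace.denseSeq G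
  let hh : ℕ → ℕ → G := fun i j => (n⁻¹ * (q i * a ((j : ℝ) + 1)⁻¹ * (q i)⁻¹) * n)⁻¹
  have h1 : ∀ i (g : G), n * g ∈ F.Ω → Tendsto (fun j : ℕ => ((j : ℝ) + 1) *
      (ℓ ((hh i j)⁻¹ • (g : G ⧸ H)) - ℓ g)) atTop (𝓝 (D (q i) (n * g))) := fun i g hg => by
    have h2 : Tendsto (fun j : ℕ => q i * a ((j : ℝ) + 1)⁻¹ * (q i)⁻¹ * (n * g)) atTop
        (𝓝 (q i * a 0 * (q i)⁻¹ * (n * g))) := ((((ha.cont.tendsto 0).comp
      (tendsto_inv_succ.mono_right nhdsWithin_le_nhds)).const_mul _).mul_const _).mul_const _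
    rw [ha.zero, mul_one, mul_inv_cancel, one_mul] at h2
    refine (hD (q i) _ hg).congr' ((h2.eventually (h.isOpen_Ω.mem_nhds hg)).mono fun j hj => ?_)
    have h3 : n * ((hh i j)⁻¹ * g) = q i * a ((j : ℝ) + 1)⁻¹ * (q i)⁻¹ * (n * g) := by
      simp only [hh]
      group
    simp only [mk_smul]
    rw [hℓ _ (h3 ▸ hj), h3, hℓ g hg]
  refine ⟨⟨hh, fun j => (j : ℝ) + 1, fun i ζ => limsup (fun j : ℕ => ((j : ℝ) + 1) *
    (ℓ ((hh i j)⁻¹ • ζ) - ℓ ζ)) atTop, fun i => Measurable.limsup fun j =>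
      ((mℓ.comp (measurable_const_smul _)).sub mℓ).const_mul _,
    tendsto_natCast_atTop_atTop.atTop_add tendsto_const_nhds, fun i ζ hζ => ?_,
    fun x hx y hy e0 e1 => ?_⟩⟩
  · obtain ⟨g, rfl⟩ := QuotientGroup.mk_surjective ζ
    have := h1 i g ((hU g).1 hζ)
    rwa [this.limsup_eq]
  obtain ⟨g, rfl⟩ := QuotientGroup.mk_surjective x
  obtain ⟨g', rfl⟩ := QuotientGroup.mk_surjective y
  rw [hU] at hx hy
  have h2 : ∀ y, D y (n * g) = D y (n * g') := congrFun ((TopologicalSpace.denseRange_denseSeq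
    G).equalizer (hc _) (hc _) (funext fun i => by
      have := e1 i
      rwa [(h1 i g hx).limsup_eq, (h1 i g' hy).limsup_eq] at this))
  rw [hℓ g hx, hℓ g' hy] at e0
  obtain ⟨u, hu, p, hP, e2⟩ := h.Ω_iff.1 hx
  obtain ⟨u', hu', p', hP', e3⟩ := h.Ω_iff.1 hy
  obtain ⟨v, hv, m, v', hv', hm, e4⟩ := hB (u'⁻¹ * u)
  have h3 : ∀ (j : ℕ) (m : G), (∀ z ∈ F.Z, m * z * m⁻¹ ∈ F.Z) → ((j : ℝ) + 1) *
      t (F.ℓ (m * a ((j : ℝ) + 1)⁻¹ * m⁻¹)) = t (F.ℓ (m * a 1 * m⁻¹)) := fun j m hm => by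
    rw [← smul_eq_mul, ← map_smul, ← Nat.cast_succ, ← h.ℓ_pow (hm _ (ha.mem _)), conj_pow, ha.pow,
      mul_inv_cancel₀ (Nat.cast_ne_zero.2 j.succ_ne_zero)]
  have h4 : ∀ {u v m p y : G}, u ∈ F.Um → v ∈ F.Up → (∀ z ∈ F.Z, m * z * m⁻¹ ∈ F.Z) →
      p ∈ F.P Finset.univ → y = u * v * m → D y (u * p) = t (F.ℓ (m * a 1 * m⁻¹)) := by
    rintro u v m p y hu hv hm hP rfl
    refine tendsto_nhds_unique (hD _ _ (h.Ω_iff.2 ⟨u, hu, p, hP, rfl⟩))
      (tendsto_const_nhds.congr fun j => ?_)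
    rw [show u * v * m * a ((j : ℝ) + 1)⁻¹ * (u * v * m)⁻¹ * (u * p) =
      u * (v * (m * a ((j : ℝ) + 1)⁻¹ * m⁻¹) * v⁻¹ * p) by group,
      l_cell h hu hv (hm _ (ha.mem _)) hP, map_add, add_sub_cancel_right, h3 j m hm]
  have h5 := h2 (u * v'⁻¹ * 1)
  rw [e2, e3, h4 hu (F.Up.inv_mem hv') (fun z hz => by simpa using hz) hP rfl,
    h4 hu' hv hm hP' (by rw [← mul_inv_cancel_left u' u, e4]; group), one_mul, inv_one,
    mul_one] at h5
  have h6 := h.um_inf_P (F.Um.mul_mem (F.Um.inv_mem hu') hu) (e4 ▸ (F.P _).mul_mem ((F.P _).mul_mem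
    (h.up_mem_P hv _) (weyl_fix h hp hm (ha.mem 1) ha.pos h5.symm)) (h.up_mem_P hv' _))
  obtain rfl := inv_mul_eq_one.1 h6
  rw [e2, e3, h.ℓ_um hu, h.ℓ_um hu] at e0
  rw [show g = n⁻¹ * u' * p by rw [mul_assoc, ← e2, inv_mul_cancel_left],
    show g' = n⁻¹ * u' * p' by rw [mul_assoc, ← e3, inv_mul_cancel_left]]
  exact h.mk_eq e _ hP hP' e0

end Vale.Agent.P092RH
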